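import Vale.Agent.P272.K.INT.Dens

/-! P272/AMP, step 9: the statements of the local and global exponential integrability of
plurisubharmonic functions. -/

open scoped Manifold ContDiff ComplexOrder
open MeasureTheory

noncomputable section

namespace Vale.Agent.P272.K.AMP

/-- Local exponential integrability of plurisubharmonic functions (sup-norm balls of `ℂⁿ`). -/
def LocalExp (n : ℕ) : Prop :=
  ∀ R : ℝ, 0 < R → ∀ M : ℝ, ∃ α : ℝ, 0 < α ∧ ∃ K : ℝ, ∀ (a : Cm n) (v : Cm n → ℝ),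
    (∀ z ∈ Metric.ball a R, ContDiffAt ℝ ∞ v z) →
    (∀ z ∈ Metric.ball a R, (cHess v z).PosSemidef) →
    (∀ z ∈ Metric.ball a R, v z ≤ 0) →
    (∃ p ∈ Metric.ball a (R / 8), -M ≤ v p) →
    ∫ z in Metric.ball a (R / 8), Real.exp (-(α * v z)) ≤ K

/-- Uniform exponential integrability on `X` of smooth functions `Ψ` with
`C₁ w + i∂∂̄Ψ ≥ 0` and `sup Ψ ∈ [-C, C]`. -/
def ExpInt (n : ℕ) (X : Type*) [TopologicalSpace X] [T2Space X] [CompactSpace X]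
    [ChartedSpace (Cm n) X] [IsManifold 𝓘(ℂ, Cm n) ω X] : Prop :=
  ∀ w : Chart n X → Cm n → Matrix (Fin n) (Fin n) ℂ, IsHermitian w → ∀ C₁ C : ℝ,
    ∃ α : ℝ, 0 < α ∧ ∃ K : ℝ, ∀ Ψ : X → ℝ, SmoothFn (n := n) Ψ →
      (∀ e x, At e x → (addH (fun e z => (C₁ : ℂ) • w e z) Ψ e (e x)).PosSemidef) →
      (∀ x, Ψ x ≤ C) → (∃ x, -C ≤ Ψ x) →
      INT.intX (fun e z => Real.exp (-(α * Ψ (e.symm z))) * (w e z).det.re) ≤ K

end Vale.Agent.P272.K.AMP
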