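import Vale.Agent.P272.K.AMP.H470.Loc
import Vale.Agent.P272.K.INT.Global

/-! P272/AMP, step 9: uniform exponential integrability on a compact connected manifold, from the
local statement `LocalExp`. -/

open scoped Manifold ContDiff ComplexOrder Topology
open MeasureTheory Set Filter Metric

noncomputable section

namespace Vale.Agent.P272.K.AMP

variable {n : ℕ} {X : Type*} [TopologicalSpace X] [ChartedSpace (Cm n) X]
  {w : Chart n X → Cm n → Matrix (Fin n) (Fin n) ℂ}

/-- the functions of the class `Q` are bounded below somewhere in every neighbourhood of `x` -/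
def Good (Q : (X → ℝ) → Prop) (x : X) : Prop :=
  ∀ U ∈ 𝓝 x, ∃ M : ℝ, ∀ Ψ, Q Ψ → ∃ p ∈ U, -M ≤ Ψ p

omit [ChartedSpace (Cm n) X] in
lemma isClosed_good (Q : (X → ℝ) → Prop) : IsClosed {x | Good Q x} := by
  rw [← closure_subset_iff_isClosed]
  intro x hx U hU
  obtain ⟨V, hVU, hV, hxV⟩ := mem_nhds_iff.1 hU
  obtain ⟨y, hyV, hy⟩ := mem_closure_iff.1 hx V hV hxV
  exact hy U (mem_of_superset (hV.mem_nhds hyV) hVU)

/-- integrability near `x` makes all the points near `x` good -/
lemma good_of_int {Q : (X → ℝ) → Prop} (hQ : ∀ Ψ, Q Ψ → SmoothFn (n := n) Ψ) {e : Chart n X}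
    (he : e ∈ atlas (Cm n) X) {a : Cm n} {R : ℝ} (hR : 0 < R) (hb : ball a R ⊆ e.target)
    {α K : ℝ} (hα : 0 < α)
    (hK : ∀ Ψ, Q Ψ → ∫ z in ball a (R / 8), Real.exp (-(α * Ψ (e.symm z))) ≤ K)
    {y : X} (hy : y ∈ e.source) (hya : e y ∈ ball a (R / 8)) : Good Q y := by
  intro U hU
  have h1 : ∀ᶠ z in 𝓝 (e y), e.symm z ∈ U ∧ z ∈ ball a (R / 8) := by
    have c1 : ContinuousAt e.symm (e y) := e.continuousAt_symm (e.map_source hy)
    have c2 : ∀ᶠ z in 𝓝 (e y), e.symm z ∈ U := by
      apply c1.eventually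
      rw [e.left_inv hy]
      exact hU
    exact c2.and (isOpen_ball.mem_nhds hya)
  obtain ⟨ε, hε, h2⟩ := Metric.eventually_nhds_iff_ball.1 h1
  have hbpos : 0 < (volume (ball (e y) ε)).toReal :=
    ENNReal.toReal_pos (measure_ball_pos volume _ hε).ne' measure_ball_lt_top.ne
  set c := (volume (ball (e y) ε)).toReal with hc
  refine ⟨Real.log (|K| / c + 1) / α, fun Ψ hΨ => ?_⟩
  by_contra hcon
  push Not at hcon
  have hs := hQ Ψ hΨ
  have hint := integrableOn_exp hs he hR hb α
  have hsub : ball (e y) ε ⊆ ball a (R / 8) := fun z hz => (h2 z hz).2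
  have h3 : ∫ z in ball (e y) ε, (|K| / c + 1) ≤
      ∫ z in ball (e y) ε, Real.exp (-(α * Ψ (e.symm z))) := by
    refine setIntegral_mono_on (integrableOn_const measure_ball_lt_top.ne) (hint.mono_set hsub)
      measurableSet_ball fun z hz => ?_
    have h4 := hcon (e.symm z) (h2 z hz).1
    have h5 : Real.log (|K| / c + 1) ≤ -(α * Ψ (e.symm z)) := by
      have h6 : Real.log (|K| / c + 1) / α < -Ψ (e.symm z) := by linarith
      rw [div_lt_iff₀ hα] at h6
      linarith
    have h7 : 0 < |K| / c + 1 := by positivity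
    calc |K| / c + 1 = Real.exp (Real.log (|K| / c + 1)) := (Real.exp_log h7).symm
      _ ≤ _ := Real.exp_le_exp.2 h5
  have h4 : ∫ z in ball (e y) ε, Real.exp (-(α * Ψ (e.symm z))) ≤
      ∫ z in ball a (R / 8), Real.exp (-(α * Ψ (e.symm z))) :=
    setIntegral_mono_set hint (Eventually.of_forall fun z => (Real.exp_pos _).le)
      (LE.le.eventuallyLE hsub)
  have h5 := hK Ψ hΨ
  have h6 : ∫ _z in ball (e y) ε, (|K| / c + 1) = c * (|K| / c + 1) := by
    rw [setIntegral_const, smul_eq_mul]; rfl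
  have h7 : c * (|K| / c + 1) = |K| + c := by field_simp
  have h8 := le_abs_self K
  linarith

section
variable [IsManifold 𝓘(ℂ, Cm n) ω X]

/-- finite partition of unity subordinate to given neighbourhoods -/
theorem exists_part_sub (n : ℕ) {X : Type*} [TopologicalSpace X] [T2Space X] [CompactSpace X]
    [ChartedSpace (Cm n) X] [IsManifold 𝓘(ℂ, Cm n) ω X] (V : X → Set X) (hV : ∀ x, IsOpen (V x))
    (hxV : ∀ x, x ∈ V x) : ∃ (N : ℕ) (c : Fin N → X) (ρ : Fin N → X → ℝ),
      (∀ i, Continuous (ρ i)) ∧ (∀ i x, 0 ≤ ρ i x) ∧ (∀ i, tsupport (ρ i) ⊆ V (c i)) ∧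
      (∀ x, ∑ i, ρ i x = 1) ∧ ∀ x, ∃ i, x ∈ V (c i) := by
  have := INT.isManifold_real n X
  obtain ⟨t, ht⟩ := isCompact_univ.elim_finite_subcover V hV
    (fun x _ => mem_iUnion.2 ⟨x, hxV x⟩)
  let N := t.card
  let c : Fin N → X := fun i => (t.equivFin.symm i : X)
  have hc : (univ : Set X) ⊆ ⋃ i, V (c i) := by
    intro x hx
    obtain ⟨y, hy⟩ := mem_iUnion.1 (ht hx)
    obtain ⟨hyt, hxy⟩ := mem_iUnion.1 hy
    exact mem_iUnion.2 ⟨t.equivFin ⟨y, hyt⟩, by simpa [c] using hxy⟩
  obtain ⟨f, hf⟩ := SmoothPartitionOfUnity.exists_isSubordinate 𝓘(ℝ, Cm n)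
    isClosed_univ (fun i => V (c i)) (fun i => hV (c i)) hc
  refine ⟨N, c, fun i => f i, fun i => (f i).contMDiff.continuous,
    fun i x => f.nonneg i x, fun i => hf i, fun x => ?_, fun x => mem_iUnion.1 (hc (mem_univ x))⟩
  have := f.sum_eq_one (mem_univ x)
  rwa [finsum_eq_sum_of_fintype] at this

/-- **Uniform exponential integrability.** -/
theorem expInt [T2Space X] [CompactSpace X] [PreconnectedSpace X] (hL : LocalExp n) :
    ExpInt n X := by
  intro w hw C₁ C
  -- radii
  choose R hR T hT hb using exists_radius hw C₁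
  set e : X → Chart n X := fun x => chartAt (Cm n) x with he
  have hea : ∀ x, e x ∈ atlas (Cm n) X := fun x => chart_mem_atlas (Cm n) x
  have hes : ∀ x, x ∈ (e x).source := fun x => mem_chart_source (Cm n) x
  set V : X → Set X := fun x => (e x).source ∩ (e x) ⁻¹' ball (e x x) (R x / 8) with hVdef
  have hVo : ∀ x, IsOpen (V x) := fun x => (e x).isOpen_inter_preimage isOpen_ball
  have hxV : ∀ x, x ∈ V x := fun x => ⟨hes x, mem_ball_self (by have := hR x; positivity)⟩
  have hkey : ∀ x M, ∃ α : ℝ, 0 < α ∧ ∃ K : ℝ, ∀ Ψ : X → ℝ, Cls w C₁ C Ψ →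
      (∃ p ∈ V x, -M ≤ Ψ p) →
      ∫ z in ball (e x x) (R x / 8), Real.exp (-(α * Ψ ((e x).symm z))) ≤ K := by
    intro x M
    obtain ⟨α, hα, K, hK⟩ := key hL (C₁ := C₁) (C := C) (w := w) (hea x) (hR x) (hT x)
      (fun z hz => ⟨(hb x z hz).1, (hb x z hz).2.1⟩) M
    refine ⟨α, hα, K, fun Ψ hΨ ⟨p, hp, hMp⟩ => hK Ψ hΨ ⟨e x p, hp.2, ?_⟩⟩
    rwa [(e x).left_inv hp.1]
  have hbt : ∀ x, ball (e x x) (R x) ⊆ (e x).target := fun x z hz => (hb x z hz).1
  -- the classes
  set Q : X → (X → ℝ) → Prop := fun y Ψ => Cls w C₁ C Ψ ∧ ∃ p ∈ V y, -C ≤ Ψ p with hQdef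
  have hgood : ∀ y x, Good (Q y) x := by
    intro y
    have h1 : IsClosed {x | Good (Q y) x} := isClosed_good _
    have h2 : ∀ x α K, 0 < α →
        (∀ Ψ, Q y Ψ → ∫ z in ball (e x x) (R x / 8), Real.exp (-(α * Ψ ((e x).symm z))) ≤ K) →
        V x ⊆ {x | Good (Q y) x} := by
      intro x α K hα hK z hz
      exact good_of_int (fun Ψ hΨ => hΨ.1.1) (hea x) (hR x) (hbt x) hα hK hz.1 hz.2
    have h3 : IsOpen {x | Good (Q y) x} := by
      rw [isOpen_iff_mem_nhds]
      intro x hx
      obtain ⟨M, hM⟩ := hx (V x) ((hVo x).mem_nhds (hxV x))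
      obtain ⟨α, hα, K, hK⟩ := hkey x M
      exact mem_of_superset ((hVo x).mem_nhds (hxV x))
        (h2 x α K hα fun Ψ hΨ => hK Ψ hΨ.1 (hM Ψ hΨ))
    have h4 : y ∈ {x | Good (Q y) x} := by
      obtain ⟨α, hα, K, hK⟩ := hkey y C
      exact h2 y α K hα (fun Ψ hΨ => hK Ψ hΨ.1 hΨ.2) (hxV y)
    have h5 : {x | Good (Q y) x} = univ := IsClopen.eq_univ ⟨h1, h3⟩ ⟨y, h4⟩
    intro x
    have : x ∈ {x | Good (Q y) x} := by rw [h5]; exact mem_univ x
    exact this
  have hloc : ∀ y x, ∃ α : ℝ, 0 < α ∧ ∃ K : ℝ, ∀ Ψ, Q y Ψ →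
      ∫ z in ball (e x x) (R x / 8), Real.exp (-(α * Ψ ((e x).symm z))) ≤ K := by
    intro y x
    obtain ⟨M, hM⟩ := hgood y x (V x) ((hVo x).mem_nhds (hxV x))
    obtain ⟨α, hα, K, hK⟩ := hkey x M
    exact ⟨α, hα, K, fun Ψ hΨ => hK Ψ hΨ.1 (hM Ψ hΨ)⟩
  choose α hα K hK using hloc
  obtain ⟨N, c, ρ, hρc, hρ0, hρs, hρ1, hcov⟩ := exists_part_sub n V hVo hxV
  -- the exponent
  obtain ⟨A, hA, hAle⟩ : ∃ A : ℝ, 0 < A ∧ ∀ i j : Fin N, A ≤ α (c i) (c j) := by
    have hfin : (Set.range fun p : Fin N × Fin N => α (c p.1) (c p.2)).Finite := finite_range _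
    rcases isEmpty_or_nonempty (Fin N) with hN | hN
    · exact ⟨1, one_pos, fun i => (hN.false i).elim⟩
    · obtain ⟨p, hp⟩ := Finite.exists_min (fun p : Fin N × Fin N => α (c p.1) (c p.2))
      exact ⟨α (c p.1) (c p.2), hα _ _, fun i j => hp (i, j)⟩
  refine ⟨A, hA, ∑ i, ∑ j, T (c j) * ((volume (ball (e (c j) (c j)) (R (c j) / 8))).toReal +
    |K (c i) (c j)|), fun Ψ hs hpsh hC ⟨x0, hx0⟩ => ?_⟩
  have hCls : Cls w C₁ C Ψ := ⟨hs, hpsh, hC⟩
  have hcont : Continuous Ψ := (SmoothFn.c2Fn hs).continuous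
  obtain ⟨i0, hi0⟩ := hcov x0
  have hQ0 : Q (c i0) Ψ := ⟨hCls, x0, hi0, hx0⟩
  set D : Chart n X → Cm n → ℝ := fun e z => Real.exp (-(A * Ψ (e.symm z))) * (w e z).det.re
    with hD
  have hdens : INT.IsDensity D := by
    have h1 : INT.IsDensity (fun (e : Chart n X) z => (w e z).det.re) :=
      INT.isDensity_det hw.isForm hw.smooth
    exact h1.smul (f := fun x => Real.exp (-(A * Ψ x))) (by fun_prop)
  rw [← hdens.isIntegral N (fun i => e (c i)) ρ (fun i => hea _) hρc
    (fun i => (hρs i).trans inter_subset_left) hρ1]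
  have hterm : ∀ j, ∫ z in (e (c j)).target, ρ j ((e (c j)).symm z) * D (e (c j)) z ≤
      T (c j) * ((volume (ball (e (c j) (c j)) (R (c j) / 8))).toReal + |K (c i0) (c j)|) := by
    intro j
    set y := c j with hy
    set B := ball (e y y) (R y / 8) with hB
    have hBt : B ⊆ (e y).target := (ball_subset_ball (by have := hR y; linarith)).trans (hbt y)
    have hdet0 : ∀ z ∈ (e y).target, 0 < (w (e y) z).det.re := by
      intro z hz
      have h1 := (hw.posDef_target (hea y) hz).det_pos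
      exact (Complex.lt_def.1 h1).1
    have e1 : ∫ z in (e y).target, ρ j ((e y).symm z) * D (e y) z =
        ∫ z in B, ρ j ((e y).symm z) * D (e y) z := by
      apply setIntegral_eq_of_subset_of_forall_sdiff_eq_zero (e y).open_target.measurableSet hBt
      intro z hz
      have h1 : (e y).symm z ∉ V y := by
        intro h
        apply hz.2
        have := h.2
        rwa [mem_preimage, (e y).right_inv hz.1] at this
      rw [image_eq_zero_of_notMem_tsupport (fun h => h1 (hρs j h)), zero_mul]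
    have hρle : ∀ x, ρ j x ≤ 1 := by
      intro x
      rw [← hρ1 x]
      exact Finset.single_le_sum (f := fun i => ρ i x) (fun i _ => hρ0 i x) (Finset.mem_univ j)
    have hint1 : IntegrableOn (fun z => Real.exp (-(α (c i0) y * Ψ ((e y).symm z)))) B :=
      integrableOn_exp hs (hea y) (hR y) (hbt y) _
    have hint2 : IntegrableOn (fun z => T y * (1 + Real.exp (-(α (c i0) y * Ψ ((e y).symm z))))) B :=
      ((integrableOn_const measure_ball_lt_top.ne).add hint1).const_mul _
    have hint0 : IntegrableOn (fun z => ρ j ((e y).symm z) * D (e y) z) B :=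
      (INT.integrableOn_dens hdens (hea y) (hρc j)
        ((hρs j).trans inter_subset_left)).mono_set hBt
    have h2 : ∫ z in B, ρ j ((e y).symm z) * D (e y) z ≤
        ∫ z in B, T y * (1 + Real.exp (-(α (c i0) y * Ψ ((e y).symm z)))) := by
      refine setIntegral_mono_on hint0 hint2 measurableSet_ball fun z hz => ?_
      have b1 := hρ0 j ((e y).symm z)
      have b2 := hρle ((e y).symm z)
      have b3 := (hdet0 z (hBt hz)).le
      have b4 := (hb y z (ball_subset_ball (by have := hR y; linarith) hz)).2.2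
      have b5 : Real.exp (-(A * Ψ ((e y).symm z))) ≤
          1 + Real.exp (-(α (c i0) y * Ψ ((e y).symm z))) := by
        rcases le_total 0 (Ψ ((e y).symm z)) with h | h
        · have : Real.exp (-(A * Ψ ((e y).symm z))) ≤ 1 := by
            rw [Real.exp_le_one_iff]
            have := mul_nonneg hA.le h
            linarith
          have := Real.exp_pos (-(α (c i0) y * Ψ ((e y).symm z)))
          linarith
        · have h3 : -(A * Ψ ((e y).symm z)) ≤ -(α (c i0) y * Ψ ((e y).symm z)) := by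
            have := mul_le_mul_of_nonpos_right (hAle i0 j) h
            linarith
          have := Real.exp_le_exp.2 h3
          linarith
      have b6 := Real.exp_pos (-(A * Ψ ((e y).symm z)))
      have b7 : 0 ≤ D (e y) z := mul_nonneg b6.le b3
      calc ρ j ((e y).symm z) * D (e y) z ≤ 1 * D (e y) z :=
            mul_le_mul_of_nonneg_right b2 b7
        _ = Real.exp (-(A * Ψ ((e y).symm z))) * (w (e y) z).det.re := by rw [one_mul]
        _ ≤ (1 + Real.exp (-(α (c i0) y * Ψ ((e y).symm z)))) * T y :=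
            mul_le_mul b5 b4 b3 (by positivity)
        _ = _ := mul_comm _ _
    have h3 : ∫ z in B, T y * (1 + Real.exp (-(α (c i0) y * Ψ ((e y).symm z)))) =
        T y * ((volume B).toReal + ∫ z in B, Real.exp (-(α (c i0) y * Ψ ((e y).symm z)))) := by
      have hc1 : Integrable (fun _ : Cm n => (1 : ℝ)) (volume.restrict B) :=
        integrableOn_const measure_ball_lt_top.ne
      rw [integral_const_mul, integral_add hc1 hint1, setIntegral_const]
      simp [Measure.real]
    rw [e1]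
    refine h2.trans ?_
    rw [h3]
    apply mul_le_mul_of_nonneg_left _ (hT y)
    have h4 := hK (c i0) y Ψ hQ0
    have h5 := le_abs_self (K (c i0) y)
    linarith
  have hnn : ∀ i j : Fin N, 0 ≤ T (c j) * ((volume (ball (e (c j) (c j)) (R (c j) / 8))).toReal +
      |K (c i) (c j)|) := fun i j => mul_nonneg (hT _) (by positivity)
  calc ∑ j, ∫ z in (e (c j)).target, ρ j ((e (c j)).symm z) * D (e (c j)) z
      ≤ ∑ j, T (c j) * ((volume (ball (e (c j) (c j)) (R (c j) / 8))).toReal +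
        |K (c i0) (c j)|) := Finset.sum_le_sum fun j _ => hterm j
    _ ≤ _ := Finset.single_le_sum (f := fun i => ∑ j, T (c j) *
        ((volume (ball (e (c j) (c j)) (R (c j) / 8))).toReal + |K (c i) (c j)|))
        (fun i _ => Finset.sum_nonneg fun j _ => hnn i j) (Finset.mem_univ i0)

end

end Vale.Agent.P272.K.AMP
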