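import Vale.Agent.P272.K.AMP.H470.Glob
import Vale.Agent.P272.K.QN.Defs

/-! P272/QN, block HA (Hartogs compactness) from the uniform exponential integrability. -/

open scoped Manifold ContDiff ComplexOrder Topology
open MeasureTheory Set Filter Metric

noncomputable section

namespace Vale.Agent.P272.K.AMP

variable {n : ℕ} {X : Type*} [TopologicalSpace X] [ChartedSpace (Cm n) X]
  [IsManifold 𝓘(ℂ, Cm n) ω X] [T2Space X] [CompactSpace X]

/-- the integral over a ball of a chart is at most the integral over `X` -/
theorem setIntegral_le_intX {D : Chart n X → Cm n → ℝ} (hD : INT.IsDensity D)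
    (h0 : ∀ e x, At e x → 0 ≤ D e (e x)) {e : Chart n X} (he : e ∈ atlas (Cm n) X)
    {a : Cm n} {r : ℝ} (hb : closedBall a r ⊆ e.target) :
    ∫ z in ball a r, D e z ≤ INT.intX D := by
  have hK : IsCompact (e.symm '' closedBall a r) :=
    (isCompact_closedBall a r).image_of_continuousOn (e.continuousOn_symm.mono hb)
  have hKe : e.symm '' closedBall a r ⊆ e.source := by
    rintro _ ⟨z, hz, rfl⟩; exact e.map_target (hb hz)
  obtain ⟨V, hV, hKV, hVe⟩ := normal_exists_closure_subset hK.isClosed e.open_source hKe
  obtain ⟨f, hf0, hf1, hf01⟩ := exists_continuous_zero_one_of_isClosed hV.isClosed_compl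
    hK.isClosed (Set.disjoint_left.2 fun x hx hx' => hx (hKV hx'))
  have hts : tsupport (f : X → ℝ) ⊆ e.source := by
    refine (closure_mono ?_).trans hVe
    intro x hx
    by_contra h
    exact hx (hf0 h)
  have hfD : INT.IsDensity (fun e z => f (e.symm z) * D e z) := hD.smul f.continuous
  have h1 : INT.intX (fun e z => f (e.symm z) * D e z) = ∫ z in e.target, f (e.symm z) * D e z := by
    refine INT.intX_of_support hfD he (isClosed_tsupport (f : X → ℝ)) hts ?_
    intro e' x hx hxt
    show f (e'.symm (e' x)) * D e' (e' x) = 0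
    rw [e'.left_inv hx.2, image_eq_zero_of_notMem_tsupport hxt, zero_mul]
  have h2 : INT.intX (fun e z => f (e.symm z) * D e z) ≤ INT.intX D := by
    refine INT.intX_mono hfD hD fun e' x hx => ?_
    have b1 := (hf01 (e'.symm (e' x))).2
    have b2 := h0 e' x hx
    nlinarith
  have hDe : ∀ z ∈ e.target, 0 ≤ D e z := by
    intro z hz
    have := h0 e (e.symm z) ⟨he, e.map_target hz⟩
    rwa [e.right_inv hz] at this
  have h3 : ∫ z in ball a r, D e z = ∫ z in ball a r, f (e.symm z) * D e z := by
    refine setIntegral_congr_fun measurableSet_ball fun z hz => ?_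
    have : f (e.symm z) = 1 := hf1 ⟨z, ball_subset_closedBall hz, rfl⟩
    simp only [this, one_mul]
  have h4 : ∫ z in ball a r, f (e.symm z) * D e z ≤ ∫ z in e.target, f (e.symm z) * D e z := by
    refine setIntegral_mono_set (INT.integrableOn_dens hD he f.continuous hts) ?_
      (LE.le.eventuallyLE (ball_subset_closedBall.trans hb))
    filter_upwards [self_mem_ae_restrict e.open_target.measurableSet] with z hz
    exact mul_nonneg (hf01 _).1 (hDe z hz)
  calc ∫ z in ball a r, D e z = ∫ z in ball a r, f (e.symm z) * D e z := h3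
    _ ≤ _ := h4
    _ = _ := h1.symm
    _ ≤ _ := h2

end Vale.Agent.P272.K.AMP

namespace Vale.Agent.P272.K.AMP

/-- **Block HA of QN** from the local exponential integrability. -/
theorem haBlock_of {n : ℕ} (hL : LocalExp n) (X : Type) [TopologicalSpace X]
    [ChartedSpace (Cm n) X] [IsManifold 𝓘(ℂ, Cm n) ω X] [T2Space X] [CompactSpace X]
    [ConnectedSpace X] : QN.HABlock n X := by
  intro _ w hw A e he z₀ r hr hb
  obtain ⟨α, hα, K, hK⟩ := expInt hL w hw A 0
  -- lower bound of det w
  have hcomp : IsCompact (closedBall z₀ r) := isCompact_closedBall z₀ r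
  have hne : (closedBall z₀ r).Nonempty := ⟨z₀, mem_closedBall_self hr.le⟩
  have hdet : ∀ z ∈ e.target, 0 < (w e z).det.re := fun z hz =>
    (Complex.lt_def.1 (hw.posDef_target he hz).det_pos).1
  have hdc : ContinuousOn (fun z => (w e z).det.re) (closedBall z₀ r) := by
    intro z hz
    have h1 : ContinuousAt (fun z => (w e z).det) z :=
      (contDiffAt_det fun i j => hw.smooth_target he (hb hz) i j).continuousAt
    exact (Complex.continuous_re.continuousAt.comp h1).continuousWithinAt
  obtain ⟨z1, hz1, hmin⟩ := hcomp.exists_isMinOn hne hdc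
  set d := (w e z1).det.re with hd
  have hdpos : 0 < d := hdet z1 (hb hz1)
  have hdle : ∀ z ∈ closedBall z₀ r, d ≤ (w e z).det.re := fun z hz => hmin hz
  have hcpos : 0 < (volume (ball z₀ r)).toReal :=
    ENNReal.toReal_pos (measure_ball_pos volume _ hr).ne' measure_ball_lt_top.ne
  set c := (volume (ball z₀ r)).toReal with hc
  set M := Real.log (2 * |K| / (d * c) + 1) / α with hM
  refine ⟨Real.exp (-M) * (c / 2), by positivity, fun u hu hpsh hu0 ⟨x0, hx0⟩ => ?_⟩
  have hpsh' : ∀ e x, At e x → (addH (fun e z => (A : ℂ) • w e z) u e (e x)).PosSemidef := by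
    intro e x h
    have := hpsh e x h
    rw [add_comm] at this
    exact this
  have hKu := hK u hu hpsh' hu0 ⟨x0, by rw [hx0]; simp⟩
  have hcont : Continuous u := (SmoothFn.c2Fn hu).continuous
  set D : Chart n X → Cm n → ℝ := fun e z => Real.exp (-(α * u (e.symm z))) * (w e z).det.re
    with hD
  have hdens : INT.IsDensity D := by
    have h1 : INT.IsDensity (fun (e : Chart n X) z => (w e z).det.re) :=
      INT.isDensity_det hw.isForm hw.smooth
    exact h1.smul (f := fun x => Real.exp (-(α * u x))) (by fun_prop)
  have hD0 : ∀ e x, At e x → 0 ≤ D e (e x) := fun e x h =>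
    mul_nonneg (Real.exp_pos _).le (Complex.lt_def.1 (hw.posDef e x h).det_pos).1.le
  have h1 := (setIntegral_le_intX hdens hD0 he hb).trans hKu
  have hc1 : ContinuousOn (fun z => u (e.symm z)) (closedBall z₀ r) :=
    hcont.comp_continuousOn (e.continuousOn_symm.mono hb)
  have hi1 : IntegrableOn (fun z => Real.exp (-(α * u (e.symm z)))) (ball z₀ r) := by
    have : ContinuousOn (fun z => Real.exp (-(α * u (e.symm z)))) (closedBall z₀ r) :=
      Real.continuous_exp.comp_continuousOn ((continuousOn_const.mul hc1).neg)
    exact (this.integrableOn_compact hcomp).mono_set ball_subset_closedBall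
  have hi2 : IntegrableOn (fun z => D e z) (ball z₀ r) := by
    have : ContinuousOn (fun z => D e z) (closedBall z₀ r) :=
      (Real.continuous_exp.comp_continuousOn ((continuousOn_const.mul hc1).neg)).mul hdc
    exact (this.integrableOn_compact hcomp).mono_set ball_subset_closedBall
  have hi3 : IntegrableOn (fun z => Real.exp (u (e.symm z))) (ball z₀ r) := by
    have : ContinuousOn (fun z => Real.exp (u (e.symm z))) (closedBall z₀ r) :=
      Real.continuous_exp.comp_continuousOn hc1
    exact (this.integrableOn_compact hcomp).mono_set ball_subset_closedBall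
  have h2 : d * ∫ z in ball z₀ r, Real.exp (-(α * u (e.symm z))) ≤ |K| := by
    rw [← integral_const_mul]
    refine le_trans ?_ (h1.trans (le_abs_self K))
    refine setIntegral_mono_on (hi1.const_mul d) hi2 measurableSet_ball fun z hz => ?_
    have b1 := hdle z (ball_subset_closedBall hz)
    have b2 := Real.exp_pos (-(α * u (e.symm z)))
    simp only [hD]
    nlinarith
  set I := ∫ z in ball z₀ r, Real.exp (-(α * u (e.symm z))) with hI
  have hexpM : Real.exp (-(α * M)) * (2 * |K| / (d * c) + 1) = 1 := by
    have h3 : 0 < 2 * |K| / (d * c) + 1 := by positivity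
    have h4 : α * M = Real.log (2 * |K| / (d * c) + 1) := by rw [hM]; field_simp
    rw [h4, Real.exp_neg, Real.exp_log h3, inv_mul_cancel₀ h3.ne']
  have h5 : Real.exp (-(α * M)) * I ≤ c / 2 := by
    have b1 : I ≤ |K| / d := by rw [le_div_iff₀ hdpos]; linarith
    have b2 := Real.exp_pos (-(α * M))
    have b3 : Real.exp (-(α * M)) * (|K| / d) ≤ c / 2 := by
      have b4 : |K| / d = (2 * |K| / (d * c)) * (c / 2) := by field_simp
      rw [b4, ← mul_assoc]
      have b5 : Real.exp (-(α * M)) * (2 * |K| / (d * c)) ≤ 1 := by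
        have : Real.exp (-(α * M)) * (2 * |K| / (d * c)) = 1 - Real.exp (-(α * M)) := by
          linarith [hexpM]
        linarith
      have b6 : 0 ≤ c / 2 := by positivity
      calc _ ≤ 1 * (c / 2) := mul_le_mul_of_nonneg_right b5 b6
        _ = c / 2 := one_mul _
    exact (mul_le_mul_of_nonneg_left b1 b2.le).trans b3
  have hpt : ∀ t : ℝ, Real.exp (-M) * (1 - Real.exp (-(α * M)) * Real.exp (-(α * t))) ≤
      Real.exp t := by
    intro t
    rcases le_or_gt (-M) t with h | h
    · have b1 : Real.exp (-M) ≤ Real.exp t := Real.exp_le_exp.2 h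
      have b2 : 0 < Real.exp (-(α * M)) * Real.exp (-(α * t)) := by positivity
      have b3 := Real.exp_pos (-M)
      nlinarith
    · have b1 : 1 ≤ Real.exp (-(α * M)) * Real.exp (-(α * t)) := by
        rw [← Real.exp_add]
        apply Real.one_le_exp
        nlinarith
      have b3 := Real.exp_pos (-M)
      have b4 := Real.exp_pos t
      nlinarith
  have hcst : IntegrableOn (fun _ : Cm n => (1 : ℝ)) (ball z₀ r) :=
    integrableOn_const measure_ball_lt_top.ne
  have h6 : Real.exp (-M) * (c - Real.exp (-(α * M)) * I) ≤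
      ∫ z in ball z₀ r, Real.exp (u (e.symm z)) := by
    have e1 : Real.exp (-M) * (c - Real.exp (-(α * M)) * I) = ∫ z in ball z₀ r,
        Real.exp (-M) * (1 - Real.exp (-(α * M)) * Real.exp (-(α * u (e.symm z)))) := by
      rw [integral_const_mul, integral_sub hcst (hi1.const_mul _), integral_const_mul,
        setIntegral_const]
      simp [Measure.real, hc, hI]
    rw [e1]
    exact setIntegral_mono_on ((hcst.sub (hi1.const_mul _)).const_mul _) hi3 measurableSet_ball
      fun z _ => hpt _
  have b3 := Real.exp_pos (-M)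
  nlinarith

end Vale.Agent.P272.K.AMP
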