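import Vale.Agent.P272.K.AMP.H470.Stmt9
import Vale.Agent.P272.K.C2.PosLin
import Vale.Agent.P272.K.Inv.Consts
import Vale.Agent.P272.K.N.Compare

/-! P272/AMP, step 9: the function `|z-a|²`, local constants and the local integrability of
functions on `X` from `LocalExp`. -/

open scoped Manifold ContDiff ComplexOrder Topology
open MeasureTheory Set Filter Metric

noncomputable section

namespace Vale.Agent.P272.K.AMP

variable {n : ℕ}

/-- `|z - a|²` -/
def sq (a z : Cm n) : ℝ := ∑ i, Complex.normSq (z i - a i)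

lemma normSq_sum_nonneg470 (a z : Cm n) : 0 ≤ sq a z := Finset.sum_nonneg fun _ _ => Complex.normSq_nonneg _

lemma sq_le {a z : Cm n} {R : ℝ} (hz : z ∈ ball a R) : sq a z ≤ n * R ^ 2 := by
  have h1 : ∀ i, Complex.normSq (z i - a i) ≤ R ^ 2 := by
    intro i
    rw [Complex.normSq_eq_norm_sq]
    have h2 : ‖z i - a i‖ ≤ ‖z - a‖ := norm_le_pi_norm (z - a) i
    have h3 : ‖z - a‖ < R := by rwa [← dist_eq_norm]
    have h4 := norm_nonneg (z i - a i)
    nlinarith
  calc sq a z ≤ ∑ _i : Fin n, R ^ 2 := Finset.sum_le_sum fun i _ => h1 i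
    _ = n * R ^ 2 := by simp

lemma contDiff_sq (a : Cm n) : ContDiff ℝ ∞ (sq a) := by
  unfold sq
  refine ContDiff.sum fun i _ => ?_
  have h1 : ContDiff ℝ ∞ (fun z : Cm n => z i - a i) :=
    ((ContinuousLinearMap.proj (R := ℝ) (φ := fun _ : Fin n => ℂ) i).contDiff).sub contDiff_const
  have h2 : (fun z : Cm n => Complex.normSq (z i - a i)) =
      fun z => (z i - a i).re * (z i - a i).re + (z i - a i).im * (z i - a i).im := by
    funext z; rw [Complex.normSq_apply]
  rw [h2]
  exact ((Complex.reCLM.contDiff.comp h1).mul (Complex.reCLM.contDiff.comp h1)).add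
    ((Complex.imCLM.contDiff.comp h1).mul (Complex.imCLM.contDiff.comp h1))

lemma coord_diff (a : Cm n) (i : Fin n) (z : Cm n) :
    DifferentiableAt ℂ (fun y : Cm n => y i - a i) z :=
  ((ContinuousLinearMap.proj (R := ℂ) (φ := fun _ : Fin n => ℂ) i).differentiableAt).sub
    (differentiableAt_const _)

lemma dz_coord (a : Cm n) (i k : Fin n) (z : Cm n) :
    dz k (fun y : Cm n => y i - a i) z = if i = k then 1 else 0 := by
  rw [INT.dz_of_holo (coord_diff a i z)]
  have h1 : HasFDerivAt (fun y : Cm n => y i - a i)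
      (ContinuousLinearMap.proj (R := ℂ) (φ := fun _ : Fin n => ℂ) i) z :=
    ((ContinuousLinearMap.proj (R := ℂ) (φ := fun _ : Fin n => ℂ) i).hasFDerivAt).sub_const _
  rw [h1.fderiv]
  simp only [ContinuousLinearMap.proj_apply, Pi.single_apply]

lemma cHess_sq (a z : Cm n) : cHess (sq a) z = 1 := by
  have hd : ∀ (i : Fin n) (y : Cm n), DifferentiableAt ℝ (fun y : Cm n => y i - a i) y :=
    fun i y => (coord_diff a i y).restrictScalars ℝ
  have hdc : ∀ (i : Fin n) (y : Cm n), DifferentiableAt ℝ (fun y : Cm n => cj (y i - a i)) y :=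
    fun i y => Complex.conjCLE.differentiableAt.comp y (hd i y)
  ext j k
  rw [cHess_apply]
  have e1 : (fun y : Cm n => ((sq a y : ℝ) : ℂ)) =
      fun y => ∑ i, (y i - a i) * cj (y i - a i) := by
    funext y
    unfold sq
    push_cast
    refine Finset.sum_congr rfl fun i _ => ?_
    rw [Complex.mul_conj]
  have e2 : dzb k (fun y : Cm n => ((sq a y : ℝ) : ℂ)) = fun y => y k - a k := by
    funext y
    rw [e1, dzb_sum Finset.univ (F := fun i (y : Cm n) => (y i - a i) * cj (y i - a i))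
      fun i _ => (hd i y).mul (hdc i y)]
    rw [Finset.sum_eq_single k]
    · rw [dzb_mul (hd k y) (hdc k y), dzb_cj (hd k y), INT.dzb_of_holo (coord_diff a k y),
        dz_coord]
      simp
    · intro i _ hik
      rw [dzb_mul (hd i y) (hdc i y), dzb_cj (hd i y), INT.dzb_of_holo (coord_diff a i y),
        dz_coord]
      simp [hik]
    · intro h; exact absurd (Finset.mem_univ k) h
  rw [e2, dz_coord, Matrix.one_apply]
  congr 1
  exact propext eq_comm

section
variable {X : Type*} [TopologicalSpace X] [T2Space X] [CompactSpace X]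
  [ChartedSpace (Cm n) X] [IsManifold 𝓘(ℂ, Cm n) ω X]
  {w : Chart n X → Cm n → Matrix (Fin n) (Fin n) ℂ}

lemma posSemidef_bound {A : Matrix (Fin n) (Fin n) ℂ} (hA : A.PosDef) (c : ℝ) {T : ℝ}
    (hT : |c| * A.trace.re ≤ T) : ((T : ℂ) • (1 : Matrix (Fin n) (Fin n) ℂ) - (c : ℂ) • A).PosSemidef := by
  have h1 : (((|c| : ℝ) : ℂ) • (A.trace • (1 : Matrix (Fin n) (Fin n) ℂ) - A)).PosSemidef :=
    (C2.trace_smul_one_sub_posSemidef hA.posSemidef).smul (by exact_mod_cast abs_nonneg c)
  have h2 : (((|c| - c : ℝ) : ℂ) • A).PosSemidef :=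
    hA.posSemidef.smul (by exact_mod_cast sub_nonneg.2 (le_abs_self c))
  have h3 : (((T - |c| * A.trace.re : ℝ) : ℂ) • (1 : Matrix (Fin n) (Fin n) ℂ)).PosSemidef :=
    Matrix.PosSemidef.one.smul (by exact_mod_cast sub_nonneg.2 hT)
  have h4 : A.trace = (A.trace.re : ℂ) := by
    have h5 : 0 ≤ A.trace := hA.posSemidef.trace_nonneg
    exact Complex.ext rfl (by rw [Complex.ofReal_im]; exact (Complex.le_def.1 h5).2.symm)
  have h6 := (h1.add h2).add h3
  convert h6 using 1
  rw [h4]
  ext i j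
  simp only [Matrix.sub_apply, Matrix.smul_apply, Matrix.add_apply, smul_eq_mul,
    Complex.ofReal_re]
  push_cast
  ring

omit [T2Space X] [CompactSpace X] [IsManifold 𝓘(ℂ, Cm n) ω X] in
/-- the local constants -/
lemma exists_radius (hw : IsHermitian w) (c : ℝ) (x : X) : ∃ R : ℝ, 0 < R ∧ ∃ T : ℝ, 0 ≤ T ∧
    ∀ z ∈ ball (chartAt (Cm n) x x) R, z ∈ (chartAt (Cm n) x).target ∧
      ((T : ℂ) • (1 : Matrix (Fin n) (Fin n) ℂ) - (c : ℂ) • w (chartAt (Cm n) x) z).PosSemidef ∧
      (w (chartAt (Cm n) x) z).det.re ≤ T := by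
  set e : Chart n X := chartAt (Cm n) x with he
  have hx : At e x := ⟨chart_mem_atlas (Cm n) x, mem_chart_source (Cm n) x⟩
  have h1 : ContinuousAt (fun z => (w e z).trace.re) (e x) := by
    have : ContinuousAt (fun z => (w e z).trace) (e x) := by
      unfold Matrix.trace
      exact tendsto_finsetSum _ fun i _ => (hw.smooth e x hx i i).continuousAt
    exact Complex.continuous_re.continuousAt.comp this
  have h2 : ContinuousAt (fun z => (w e z).det.re) (e x) := by
    have : ContinuousAt (fun z => (w e z).det) (e x) :=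
      (contDiffAt_det (hw.smooth e x hx)).continuousAt
    exact Complex.continuous_re.continuousAt.comp this
  set A := (w e (e x)).trace.re + 1
  set B := (w e (e x)).det.re + 1
  have h3 : ∀ᶠ z in 𝓝 (e x), (w e z).trace.re < A := h1.eventually_lt continuousAt_const (by simp [A])
  have h4 : ∀ᶠ z in 𝓝 (e x), (w e z).det.re < B := h2.eventually_lt continuousAt_const (by simp [B])
  have h5 : ∀ᶠ z in 𝓝 (e x), z ∈ e.target := e.open_target.mem_nhds (e.map_source hx.2)
  obtain ⟨R, hR, h6⟩ := Metric.eventually_nhds_iff_ball.1 (h3.and (h4.and h5))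
  refine ⟨R, hR, max 0 (max (|c| * A) B), le_max_left _ _, fun z hz => ?_⟩
  obtain ⟨a1, a2, a3⟩ := h6 z hz
  refine ⟨a3, posSemidef_bound (hw.posDef_target hx.1 a3) c ?_, ?_⟩
  · refine le_trans ?_ ((le_max_left _ _).trans (le_max_right _ _))
    exact mul_le_mul_of_nonneg_left a1.le (abs_nonneg c)
  · exact a2.le.trans ((le_max_right _ _).trans (le_max_right _ _))

/-- the class of functions -/
def Cls (w : Chart n X → Cm n → Matrix (Fin n) (Fin n) ℂ) (C₁ C : ℝ) (Ψ : X → ℝ) : Prop :=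
  SmoothFn (n := n) Ψ ∧
    (∀ e x, At e x → (addH (fun e z => (C₁ : ℂ) • w e z) Ψ e (e x)).PosSemidef) ∧
      ∀ x, Ψ x ≤ C

omit [T2Space X] [CompactSpace X] [IsManifold 𝓘(ℂ, Cm n) ω X] in
lemma smooth_at_target {Ψ : X → ℝ} (h : SmoothFn (n := n) Ψ) {e : Chart n X}
    (he : e ∈ atlas (Cm n) X) {z : Cm n} (hz : z ∈ e.target) :
    ContDiffAt ℝ ∞ (fun y => Ψ (e.symm y)) z := by
  have := h e (e.symm z) ⟨he, e.map_target hz⟩
  rwa [e.right_inv hz] at this

omit [T2Space X] [CompactSpace X] [IsManifold 𝓘(ℂ, Cm n) ω X] in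
lemma integrableOn_exp {Ψ : X → ℝ} (h : SmoothFn (n := n) Ψ) {e : Chart n X}
    (he : e ∈ atlas (Cm n) X) {a : Cm n} {R : ℝ} (hR : 0 < R) (hb : ball a R ⊆ e.target) (α : ℝ) :
    IntegrableOn (fun z => Real.exp (-(α * Ψ (e.symm z)))) (ball a (R / 8)) := by
  have h1 : closedBall a (R / 8) ⊆ ball a R := closedBall_subset_ball (by linarith)
  have h2 : ContinuousOn (fun z => Real.exp (-(α * Ψ (e.symm z)))) (closedBall a (R / 8)) := by
    intro z hz
    have h3 := (smooth_at_target h he (hb (h1 hz))).continuousAt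
    exact (Real.continuous_exp.continuousAt.comp
      ((continuousAt_const.mul h3).neg)).continuousWithinAt
  exact (h2.integrableOn_compact (isCompact_closedBall a (R / 8))).mono_set ball_subset_closedBall

omit [T2Space X] [CompactSpace X] [IsManifold 𝓘(ℂ, Cm n) ω X] in
/-- local integrability around `x` -/
lemma key (hL : LocalExp n) {C₁ C : ℝ} {e : Chart n X} (he : e ∈ atlas (Cm n) X)
    {a : Cm n} {R T : ℝ} (hR : 0 < R) (hT : 0 ≤ T)
    (hb : ∀ z ∈ ball a R, z ∈ e.target ∧
      ((T : ℂ) • (1 : Matrix (Fin n) (Fin n) ℂ) - (C₁ : ℂ) • w e z).PosSemidef) (M : ℝ) :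
    ∃ α : ℝ, 0 < α ∧ ∃ K : ℝ, ∀ Ψ : X → ℝ, Cls w C₁ C Ψ →
      (∃ p ∈ ball a (R / 8), -M ≤ Ψ (e.symm p)) →
      ∫ z in ball a (R / 8), Real.exp (-(α * Ψ (e.symm z))) ≤ K := by
  obtain ⟨α, hα, K, hK⟩ := hL R hR (M + C + T * (n * R ^ 2))
  refine ⟨α, hα, K * Real.exp (α * |C|), fun Ψ hΨ ⟨p, hp, hMp⟩ => ?_⟩
  obtain ⟨hs, hpsh, hC⟩ := hΨ
  set v : Cm n → ℝ := fun z => (Ψ (e.symm z) + T * sq a z) - (C + T * (n * R ^ 2)) with hv
  have hsm : ∀ z ∈ ball a R, ContDiffAt ℝ ∞ (fun y => Ψ (e.symm y)) z := fun z hz =>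
    smooth_at_target hs he (hb z hz).1
  have hsqs : ∀ z, ContDiffAt ℝ ∞ (fun y => T * sq a y) z := fun z =>
    contDiffAt_const.mul (contDiff_sq a).contDiffAt
  have h2le : (2 : WithTop ℕ∞) ≤ ∞ := by norm_cast
  have h1 : ∀ z ∈ ball a R, ContDiffAt ℝ ∞ v z := fun z hz =>
    ((hsm z hz).add (hsqs z)).sub contDiffAt_const
  have h2 : ∀ z ∈ ball a R, (cHess v z).PosSemidef := by
    intro z hz
    have e1 : cHess v z = cHess (fun y => Ψ (e.symm y)) z + (T : ℂ) • 1 := by
      rw [hv, cHess_sub (((hsm z hz).add (hsqs z)).of_le h2le) contDiffAt_const,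
        cHess_add ((hsm z hz).of_le h2le) ((hsqs z).of_le h2le),
        cHess_const_mul T ((contDiff_sq a).contDiffAt.of_le h2le), cHess_sq,
        N.cHess_const, sub_zero]
    have e2 : (addH (fun e z => (C₁ : ℂ) • w e z) Ψ e z).PosSemidef := by
      have := hpsh e (e.symm z) ⟨he, e.map_target (hb z hz).1⟩
      rwa [e.right_inv (hb z hz).1] at this
    have e3 := e2.add (hb z hz).2
    rw [e1]
    convert e3 using 1
    simp only [addH]
    abel
  have h3 : ∀ z ∈ ball a R, v z ≤ 0 := by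
    intro z hz
    have a1 := hC (e.symm z)
    have a2 := mul_le_mul_of_nonneg_left (sq_le hz) hT
    simp only [hv]; linarith
  have h4 : ∃ p ∈ ball a (R / 8), -(M + C + T * (n * R ^ 2)) ≤ v p := by
    refine ⟨p, hp, ?_⟩
    have a2 := mul_nonneg hT (normSq_sum_nonneg470 a p)
    simp only [hv]; linarith
  have h5 := hK a v h1 h2 h3 h4
  have h8 : ball a (R / 8) ⊆ ball a R := ball_subset_ball (by linarith)
  have h6 : ∀ z ∈ ball a (R / 8), Real.exp (-(α * Ψ (e.symm z))) ≤
      Real.exp (-(α * v z)) * Real.exp (α * |C|) := by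
    intro z hz
    rw [← Real.exp_add]
    apply Real.exp_le_exp.2
    have a2 := mul_le_mul_of_nonneg_left (sq_le (h8 hz)) hT
    have a3 : -C ≤ |C| := neg_le_abs C
    have a4 : α * (T * sq a z - T * (n * R ^ 2) - C - |C|) ≤ 0 :=
      mul_nonpos_of_nonneg_of_nonpos hα.le (by linarith)
    simp only [hv]
    nlinarith
  have h7 : IntegrableOn (fun z => Real.exp (-(α * v z)) * Real.exp (α * |C|))
      (ball a (R / 8)) := by
    have b1 : ContinuousOn (fun z => Real.exp (-(α * v z)) * Real.exp (α * |C|))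
        (closedBall a (R / 8)) := by
      intro z hz
      have hz' : z ∈ ball a R := closedBall_subset_ball (by linarith) hz
      have h3 := (h1 z hz').continuousAt
      exact ((Real.continuous_exp.continuousAt.comp
        ((continuousAt_const.mul h3).neg)).mul continuousAt_const).continuousWithinAt
    exact (b1.integrableOn_compact (isCompact_closedBall a (R / 8))).mono_set
      ball_subset_closedBall
  calc ∫ z in ball a (R / 8), Real.exp (-(α * Ψ (e.symm z)))
      ≤ ∫ z in ball a (R / 8), Real.exp (-(α * v z)) * Real.exp (α * |C|) :=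
        setIntegral_mono_on (integrableOn_exp hs he hR (fun z hz => (hb z hz).1) α) h7
          measurableSet_ball h6
    _ = (∫ z in ball a (R / 8), Real.exp (-(α * v z))) * Real.exp (α * |C|) :=
        integral_mul_const _ _
    _ ≤ K * Real.exp (α * |C|) := mul_le_mul_of_nonneg_right h5 (Real.exp_pos _).le

end

end Vale.Agent.P272.K.AMP
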