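import Vale.Agent.P272.K.AMP.H470.Stmt9
import Vale.Agent.P272.K.QN.H86.Poly
import Mathlib.MeasureTheory.Measure.Haar.NormedSpace
import Mathlib.MeasureTheory.Integral.Prod

/-! P272/AMP, step 9: the local exponential integrability in `ℂⁿ` from the one-dimensional one, by
slicing with complex lines. -/

open scoped Manifold ContDiff ComplexOrder Topology Pointwise
open MeasureTheory Set Filter Metric Complex

noncomputable section

namespace Vale.Agent.P272.K.AMP

variable {n : ℕ}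

/-- One-dimensional exponential integrability of smooth subharmonic functions. -/
def OneD : Prop :=
  ∀ M : ℝ, ∃ α : ℝ, 0 < α ∧ ∃ K : ℝ, ∀ U : ℂ → ℝ,
    (∀ z ∈ ball (0 : ℂ) (7 / 6), ContDiffAt ℝ ∞ U z) →
    (∀ z ∈ ball (0 : ℂ) (7 / 6), 0 ≤ fderiv ℝ (fderiv ℝ U) z 1 1 + fderiv ℝ (fderiv ℝ U) z I I) →
    (∀ z ∈ ball (0 : ℂ) (7 / 6), U z ≤ 0) → -M ≤ U 0 →
    ∫ z in ball (0 : ℂ) (1 / 2), Real.exp (-(α * U z)) ≤ K

/-- scaling by a complex number -/
lemma slice_int {f : Cm n → ℝ} (hf0 : ∀ z, 0 ≤ f z) {ρ : ℝ} (hρ : 0 < ρ)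
    (hint : IntegrableOn f (ball 0 (ρ / 2))) {ζ : ℂ} (h1 : 1 / 3 ≤ ‖ζ‖) (h2 : ‖ζ‖ ≤ 1 / 2) :
    ∫ v in ball (0 : Cm n) (ρ / 3), f v ≤ ∫ v in ball (0 : Cm n) ρ, f (ζ • v) := by
  set t : ℝ := ‖ζ‖ with ht
  have htpos : 0 < t := by linarith
  have e1 : ∀ v : Cm n, ζ • v = t • (cexp (ζ.arg * I) • v) := by
    intro v
    have h3 : ζ = (t : ℂ) * cexp (ζ.arg * I) := (Complex.norm_mul_exp_arg_mul_I ζ).symm
    conv_lhs => rw [h3]
    rw [mul_smul]
    rfl
  have e2 : ∫ v in ball (0 : Cm n) ρ, f (ζ • v) = ∫ v in ball (0 : Cm n) ρ, f (t • v) := by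
    rw [← QN.H86.setIntegral_rot (fun v => f (t • v)) ρ ζ.arg]
    refine setIntegral_congr_fun measurableSet_ball fun v _ => ?_
    simp only [e1 v]
  have e3 := Measure.setIntegral_comp_smul_of_pos (volume : Measure (Cm n)) f
    (ball (0 : Cm n) ρ) htpos
  have e4 : t • ball (0 : Cm n) ρ = ball 0 (t * ρ) := by
    rw [_root_.smul_ball htpos.ne', smul_zero, Real.norm_of_nonneg htpos.le]
  rw [e2, e3, e4, smul_eq_mul]
  have h3 : ball (0 : Cm n) (ρ / 3) ⊆ ball 0 (t * ρ) := ball_subset_ball (by nlinarith)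
  have h4 : ball (0 : Cm n) (t * ρ) ⊆ ball 0 (ρ / 2) := ball_subset_ball (by nlinarith)
  have h5 : ∫ v in ball (0 : Cm n) (ρ / 3), f v ≤ ∫ v in ball (0 : Cm n) (t * ρ), f v :=
    setIntegral_mono_set (hint.mono_set h4) (Eventually.of_forall hf0)
      (LE.le.eventuallyLE h3)
  have h6 : 0 ≤ ∫ v in ball (0 : Cm n) (t * ρ), f v := integral_nonneg hf0
  have h7 : 1 ≤ (t ^ Module.finrank ℝ (Cm n))⁻¹ := by
    rw [one_le_inv₀ (by positivity)]
    exact pow_le_one₀ htpos.le (by linarith)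
  calc ∫ v in ball (0 : Cm n) (ρ / 3), f v ≤ ∫ v in ball (0 : Cm n) (t * ρ), f v := h5
    _ = 1 * ∫ v in ball (0 : Cm n) (t * ρ), f v := (one_mul _).symm
    _ ≤ _ := mul_le_mul_of_nonneg_right h7 h6

/-- the restriction of a plurisubharmonic function to a complex line -/
lemma slice_lap {f : Cm n → ℝ} {c v : Cm n} {ζ : ℂ} (hf : ContDiffAt ℝ ∞ f (c + ζ • v))
    (hL : (cHess f (c + ζ • v)).PosSemidef) :
    0 ≤ fderiv ℝ (fderiv ℝ fun ζ : ℂ => f (c + ζ • v)) ζ 1 1 +
      fderiv ℝ (fderiv ℝ fun ζ : ℂ => f (c + ζ • v)) ζ I I := by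
  set L : ℂ →L[ℝ] Cm n := (ContinuousLinearMap.toSpanSingleton ℂ v).restrictScalars ℝ with hLdef
  have hLa : ∀ ζ, L ζ = ζ • v := fun ζ => by simp [hLdef]
  have hf2 : ContDiffAt ℝ 2 f (c + L ζ) := by rw [hLa]; exact hf.of_le (by norm_cast)
  have e0 : (fun ζ : ℂ => f (c + ζ • v)) = fun ζ => f (c + L ζ) := by
    funext y; rw [hLa]
  rw [e0, QN.H86.fderiv2_affine L c hf2, QN.H86.fderiv2_affine L c hf2]
  set B := fderiv ℝ (fderiv ℝ f) (c + L ζ) with hB
  have hd : DifferentiableAt ℝ (fderiv ℝ f) (c + L ζ) :=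
    (hf2.fderiv_right (m := 1) (by norm_num)).differentiableAt (by norm_num)
  have hsym : ∀ v w, B v w = B w v := fun v w =>
    hf2.isSymmSndFDerivAt (by simp) v w
  have h1 := hL.dotProduct_mulVec_nonneg (star v)
  rw [← hLa, N.cHess_eq_lev hd, ← hB, N.lev_quadratic hsym] at h1
  rw [star_star] at h1
  have h3 : (0:ℝ) ≤ (B v v + B (I • v) (I • v)) / 4 := by exact_mod_cast h1
  rw [hLa, hLa, one_smul]
  linarith

/-- **slicing** -/
theorem localExp_of_oneD (h1D : OneD) (n : ℕ) : LocalExp n := by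
  intro R hR M
  obtain ⟨α, hα, K, hK⟩ := h1D M
  set A : Set ℂ := ball (0 : ℂ) (1 / 2) \ ball 0 (1 / 3) with hA
  have hAm : MeasurableSet A := measurableSet_ball.diff measurableSet_ball
  have hAfin : volume A ≠ ⊤ := (measure_mono sdiff_subset).trans_lt
    (measure_ball_lt_top (μ := volume) (x := (0 : ℂ)) (r := 1 / 2)) |>.ne
  have hApos : 0 < (volume A).toReal := by
    refine ENNReal.toReal_pos ?_ hAfin
    have h1 : ball (5 / 12 : ℂ) (1 / 12) ⊆ A := by
      intro z hz
      rw [mem_ball, dist_eq_norm] at hz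
      have h2 : ‖(5 / 12 : ℂ)‖ = 5 / 12 := by norm_num
      have h3 : ‖z‖ ≤ ‖z - 5 / 12‖ + ‖(5 / 12 : ℂ)‖ := by
        have := norm_add_le (z - 5 / 12) (5 / 12 : ℂ); simpa using this
      have h4 : ‖(5 / 12 : ℂ)‖ ≤ ‖z‖ + ‖z - 5 / 12‖ := by
        have := norm_sub_le z (z - 5 / 12)
        simpa using this
      refine ⟨?_, ?_⟩
      · rw [mem_ball_zero_iff]; linarith
      · rw [mem_ball_zero_iff]; linarith
    exact (((measure_ball_pos volume (5 / 12 : ℂ) (by norm_num)).trans_le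
      (measure_mono h1)).ne')
  set c := (volume A).toReal with hc
  set ρ : ℝ := 3 * R / 4 with hρ
  have hρpos : 0 < ρ := by positivity
  refine ⟨α, hα, K * (volume (ball (0 : Cm n) ρ)).toReal / c, ?_⟩
  rintro a v hs hpsh hv0 ⟨p, hp, hMp⟩
  -- the translated function
  have hmem : ∀ (ζ : ℂ) (z : Cm n), ‖ζ‖ < 7 / 6 → z ∈ ball (0 : Cm n) ρ → p + ζ • z ∈ ball a R := by
    intro ζ z hζ hz
    rw [mem_ball_zero_iff] at hz
    rw [mem_ball, dist_eq_norm] at hp ⊢
    have h1 : ‖p + ζ • z - a‖ ≤ ‖p - a‖ + ‖ζ • z‖ := by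
      have := norm_add_le (p - a) (ζ • z)
      rwa [sub_add_eq_add_sub] at this
    rw [norm_smul] at h1
    have h2 : ‖ζ‖ * ‖z‖ ≤ 7 / 6 * ρ :=
      mul_le_mul hζ.le hz.le (norm_nonneg _) (by norm_num)
    have h3 : 7 / 6 * ρ = 7 * R / 8 := by rw [hρ]; ring
    linarith
  -- the one-dimensional bound on each line
  have h1 : ∀ z ∈ ball (0 : Cm n) ρ,
      ∫ ζ in ball (0 : ℂ) (1 / 2), Real.exp (-(α * v (p + ζ • z))) ≤ K := by
    intro z hz
    refine hK (fun ζ => v (p + ζ • z)) ?_ ?_ ?_ (by simpa using hMp)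
    · intro ζ hζ
      rw [mem_ball_zero_iff] at hζ
      refine (hs _ (hmem ζ z hζ hz)).comp ζ (f := fun ζ : ℂ => p + ζ • z) ?_
      fun_prop
    · intro ζ hζ
      rw [mem_ball_zero_iff] at hζ
      exact slice_lap (hs _ (hmem ζ z hζ hz)) (hpsh _ (hmem ζ z hζ hz))
    · intro ζ hζ
      rw [mem_ball_zero_iff] at hζ
      exact hv0 _ (hmem ζ z hζ hz)
  have hcontF : ContinuousOn (fun q : ℂ × Cm n => Real.exp (-(α * v (p + q.1 • q.2))))
      (closedBall (0 : ℂ) (1 / 2) ×ˢ closedBall (0 : Cm n) ρ) := by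
    rintro ⟨ζ, z⟩ ⟨hζ, hz⟩
    simp only [mem_closedBall_zero_iff] at hζ hz
    have h2 : p + ζ • z ∈ ball a R := by
      rw [mem_ball, dist_eq_norm] at hp ⊢
      have h1 : ‖p + ζ • z - a‖ ≤ ‖p - a‖ + ‖ζ • z‖ := by
        have := norm_add_le (p - a) (ζ • z)
        rwa [sub_add_eq_add_sub] at this
      rw [norm_smul] at h1
      have h2 : ‖ζ‖ * ‖z‖ ≤ 1 / 2 * ρ :=
        mul_le_mul hζ hz (norm_nonneg _) (by norm_num)
      have h3 : 1 / 2 * ρ = 3 * R / 8 := by rw [hρ]; ring
      linarith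
    have h3 : ContinuousAt v (p + ζ • z) := (hs _ h2).continuousAt
    have h4 : ContinuousAt (fun q : ℂ × Cm n => p + q.1 • q.2) (ζ, z) := by fun_prop
    have h5 : ContinuousAt (fun q : ℂ × Cm n => v (p + q.1 • q.2)) (ζ, z) :=
      ContinuousAt.comp (f := fun q : ℂ × Cm n => p + q.1 • q.2) h3 h4
    exact (Real.continuous_exp.continuousAt.comp
      ((continuousAt_const.mul h5).neg)).continuousWithinAt
  have hAsub' : A ⊆ ball (0 : ℂ) (1 / 2) := sdiff_subset
  have hAsub : A ⊆ closedBall (0 : ℂ) (1 / 2) := hAsub'.trans ball_subset_closedBall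
  have hintF : Integrable (fun q : ℂ × Cm n => Real.exp (-(α * v (p + q.1 • q.2))))
      ((volume.restrict A).prod (volume.restrict (ball (0 : Cm n) ρ))) := by
    rw [Measure.prod_restrict]
    have h2 := hcontF.integrableOn_compact (μ := volume)
      ((isCompact_closedBall (0 : ℂ) (1 / 2)).prod (isCompact_closedBall (0 : Cm n) ρ))
    exact h2.mono_set (prod_mono hAsub ball_subset_closedBall)
  have hswap : ∫ ζ in A, ∫ z in ball (0 : Cm n) ρ, Real.exp (-(α * v (p + ζ • z))) =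
      ∫ z in ball (0 : Cm n) ρ, ∫ ζ in A, Real.exp (-(α * v (p + ζ • z))) :=
    integral_integral_swap hintF
  set f : Cm n → ℝ := fun y => Real.exp (-(α * v (p + y))) with hf
  have hf0 : ∀ z, 0 ≤ f z := fun z => (Real.exp_pos _).le
  have hfint : IntegrableOn f (ball 0 (ρ / 2)) := by
    have h2 : ContinuousOn f (closedBall 0 (ρ / 2)) := by
      intro y hy
      rw [mem_closedBall_zero_iff] at hy
      have h2 : p + y ∈ ball a R := by
        rw [mem_ball, dist_eq_norm] at hp ⊢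
        have h1 : ‖p + y - a‖ ≤ ‖p - a‖ + ‖y‖ := by
          have := norm_add_le (p - a) y
          rwa [sub_add_eq_add_sub] at this
        have h3 : ρ / 2 = 3 * R / 8 := by rw [hρ]; ring
        linarith
      have h3 : ContinuousAt v (p + y) := (hs _ h2).continuousAt
      have h4 : ContinuousAt (fun q : Cm n => p + q) y := by fun_prop
      have h5 : ContinuousAt (fun q : Cm n => v (p + q)) y :=
        ContinuousAt.comp (f := fun q : Cm n => p + q) h3 h4
      exact (Real.continuous_exp.continuousAt.comp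
        ((continuousAt_const.mul h5).neg)).continuousWithinAt
    exact (h2.integrableOn_compact (isCompact_closedBall _ _)).mono_set ball_subset_closedBall
  have hlow : c * ∫ y in ball (0 : Cm n) (ρ / 3), f y ≤
      ∫ ζ in A, ∫ z in ball (0 : Cm n) ρ, Real.exp (-(α * v (p + ζ • z))) := by
    have e1 : c * ∫ y in ball (0 : Cm n) (ρ / 3), f y =
        ∫ _ζ in A, ∫ y in ball (0 : Cm n) (ρ / 3), f y := by
      rw [setIntegral_const, smul_eq_mul]; rfl
    rw [e1]
    refine setIntegral_mono_on (integrableOn_const hAfin) hintF.integral_prod_left hAm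
      fun ζ hζ => ?_
    have h2 : ‖ζ‖ ≤ 1 / 2 := by
      have := hζ.1
      rw [mem_ball_zero_iff] at this
      exact this.le
    have h3 : 1 / 3 ≤ ‖ζ‖ := by
      have := hζ.2
      rw [mem_ball_zero_iff, not_lt] at this
      exact this
    exact slice_int hf0 hρpos hfint h3 h2
  have hup : ∫ z in ball (0 : Cm n) ρ, ∫ ζ in A, Real.exp (-(α * v (p + ζ • z))) ≤
      K * (volume (ball (0 : Cm n) ρ)).toReal := by
    have e1 : K * (volume (ball (0 : Cm n) ρ)).toReal = ∫ _z in ball (0 : Cm n) ρ, K := by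
      rw [setIntegral_const, smul_eq_mul, mul_comm]; rfl
    rw [e1]
    refine setIntegral_mono_on hintF.integral_prod_right (integrableOn_const
      measure_ball_lt_top.ne) measurableSet_ball fun z hz => ?_
    refine le_trans ?_ (h1 z hz)
    have hi : IntegrableOn (fun ζ : ℂ => Real.exp (-(α * v (p + ζ • z))))
        (closedBall (0 : ℂ) (1 / 2)) := by
      have h2 : ContinuousOn (fun ζ : ℂ => Real.exp (-(α * v (p + ζ • z))))
          (closedBall (0 : ℂ) (1 / 2)) := by
        have := hcontF.comp (f := fun ζ : ℂ => (ζ, z)) (s := closedBall (0 : ℂ) (1 / 2))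
          (by fun_prop) (fun ζ hζ => ⟨hζ, ball_subset_closedBall hz⟩)
        exact this
      exact h2.integrableOn_compact (isCompact_closedBall _ _)
    exact setIntegral_mono_set (hi.mono_set ball_subset_closedBall)
      (Eventually.of_forall fun _ => (Real.exp_pos _).le) (LE.le.eventuallyLE hAsub')
  -- translate
  have htr : ∫ z in ball a (R / 8), Real.exp (-(α * v z)) ≤
      ∫ y in ball (0 : Cm n) (ρ / 3), f y := by
    have e1 : ∫ y in ball (0 : Cm n) (ρ / 3), f y = ∫ z in ball p (ρ / 3), Real.exp (-(α * v z)) := by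
      have h2 := (measurePreserving_add_left (volume : Measure (Cm n)) p).setIntegral_preimage_emb
        (MeasurableEquiv.addLeft p).measurableEmbedding (fun z => Real.exp (-(α * v z)))
        (ball p (ρ / 3))
      have h3 : (fun y => p + y) ⁻¹' ball p (ρ / 3) = ball 0 (ρ / 3) := by
        ext y; simp [mem_ball, dist_eq_norm]
      rw [h3] at h2
      exact h2
    rw [e1]
    have h2 : ball a (R / 8) ⊆ ball p (ρ / 3) := by
      intro z hz
      rw [mem_ball] at hz hp ⊢
      have h3 : ρ / 3 = R / 4 := by rw [hρ]; ring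
      have := dist_triangle_right z p a
      linarith
    refine setIntegral_mono_set ?_ (Eventually.of_forall fun _ => (Real.exp_pos _).le)
      (LE.le.eventuallyLE h2)
    have h4 : ContinuousOn (fun z => Real.exp (-(α * v z))) (closedBall p (ρ / 3)) := by
      intro y hy
      rw [mem_closedBall] at hy
      have h2 : y ∈ ball a R := by
        rw [mem_ball] at hp ⊢
        have h3 : ρ / 3 = R / 4 := by rw [hρ]; ring
        have := dist_triangle y p a
        linarith
      have h3 : ContinuousAt v y := (hs _ h2).continuousAt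
      exact (Real.continuous_exp.continuousAt.comp
        ((continuousAt_const.mul h3).neg)).continuousWithinAt
    exact (h4.integrableOn_compact (isCompact_closedBall _ _)).mono_set ball_subset_closedBall
  rw [le_div_iff₀ hApos]
  calc (∫ z in ball a (R / 8), Real.exp (-(α * v z))) * c
      ≤ (∫ y in ball (0 : Cm n) (ρ / 3), f y) * c := mul_le_mul_of_nonneg_right htr hApos.le
    _ = c * ∫ y in ball (0 : Cm n) (ρ / 3), f y := mul_comm _ _
    _ ≤ _ := hlow.trans (hswap.le.trans hup)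

end Vale.Agent.P272.K.AMP
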